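import Mathlib

/-!
# P114: the maps of an iterated function system and the entropy of the random walk they generate
-/

namespace Vale.Agent.P114

open Finset

variable {ι : Type*} [Fintype ι]

/-- The composition `φ_{w 0} ∘ ⋯ ∘ φ_{w (n-1)}` of `φ i x = r i * x + t i`, as (slope, translation). -/
noncomputable def wordMap (r t : ι → ℝ) : (n : ℕ) → (Fin n → ι) → ℝ × ℝ
  | 0, _ => (1, 0)
  | n + 1, w =>
    (r (w 0) * (wordMap r t n (Fin.tail w)).1,
      t (w 0) + r (w 0) * (wordMap r t n (Fin.tail w)).2)

open Classical in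
/-- `P(G_n = g)`: the total probability of the words of length `n` whose map is `g`. -/
noncomputable def mapProb (r t p : ι → ℝ) (n : ℕ) (g : ℝ × ℝ) : ℝ :=
  ∑ w ∈ univ.filter (fun w : Fin n → ι => wordMap r t n w = g), ∏ k, p (w k)

open Classical in
/-- The base two Shannon entropy `H(G_n)` of the random composed map. -/
noncomputable def mapEntropy (r t p : ι → ℝ) (n : ℕ) : ℝ :=
  ∑ g ∈ univ.image (wordMap r t n), -(mapProb r t p n g * Real.logb 2 (mapProb r t p n g))

/-- The entropy rate `inf_{n ≥ 1} H(G_n) / n`. -/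
noncomputable def entropyRate (r t p : ι → ℝ) : ℝ :=
  ⨅ n : ℕ, mapEntropy r t p (n + 1) / (n + 1)

end Vale.Agent.P114
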