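import Vale.Agent.P114.Tiling

/-!
# P114: the entropy rate is at least the Lyapunov exponent
-/

namespace Vale.Agent.P114

open Finset Function

variable {ι : Type*} [Fintype ι] {r t p : ι → ℝ}

theorem sum_cons (n : ℕ) (F : (Fin (n + 1) → ι) → ℝ) :
    ∑ w, F w = ∑ i, ∑ v : Fin n → ι, F (Fin.cons i v) := by
  rw [← (Fin.consEquiv fun _ : Fin (n + 1) => ι).sum_comp F, Fintype.sum_prod_type]
  rfl

theorem wordMap_cons (n : ℕ) (i : ι) (v : Fin n → ι) :
    wordMap r t (n + 1) (Fin.cons i v)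
      = (r i * (wordMap r t n v).1, t i + r i * (wordMap r t n v).2) := by
  simp [wordMap]

theorem prod_cons_eq (n : ℕ) (i : ι) (v : Fin n → ι) :
    ∏ k, p ((Fin.cons i v : Fin (n + 1) → ι) k) = p i * ∏ k, p (v k) := by
  simp [Fin.prod_univ_succ]

open Classical in
theorem word_invariant (h : ResidueInvariant r t p) (n : ℕ) :
    ∀ (φ f : ℝ → ℝ), Periodic f 1 →
      ∑ w : Fin n → ι, (∏ k, p (w k)) * φ (wordMap r t n w).1 *
        (f ((wordMap r t n w).2 + (wordMap r t n w).1) - f (wordMap r t n w).2) = 0 := by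
  induction n with
  | zero =>
    intro φ f hf
    simp [wordMap, show f 1 = f 0 by simpa using hf 0]
  | succ n ih =>
    intro φ f hf
    simp only [sum_cons, wordMap_cons, prod_cons_eq]
    rw [← sum_fiberwise_of_maps_to (g := r) (fun i _ => mem_image_of_mem r (mem_univ i))]
    refine sum_eq_zero fun a ha => ?_
    obtain ⟨i0, -, rfl⟩ := mem_image.1 ha
    rw [sum_comm]
    refine Eq.trans (sum_congr rfl fun v _ => ?_)
      (ih (fun x => φ (r i0 * x)) _ (periodic_stepOp h hf i0))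
    simp only [stepOp, ← sum_sub_distrib, mul_sum]
    refine sum_congr rfl fun i hi => ?_
    rw [(mem_filter.1 hi).2]
    ring_nf

theorem slope_eq (hr : ∀ i, ∃ b : ℕ, 2 ≤ b ∧ |r i| = 1 / (b : ℝ)) (n : ℕ) (w : Fin n → ι) :
    ∃ B : ℕ, 1 ≤ B ∧ |(wordMap r t n w).1| = 1 / (B : ℝ) := by
  induction n with
  | zero => exact ⟨1, le_rfl, by simp [wordMap]⟩
  | succ n ih =>
    obtain ⟨B, hB, hB'⟩ := ih (Fin.tail w)
    obtain ⟨b, hb, hb'⟩ := hr (w 0)
    refine ⟨b * B, Nat.one_le_iff_ne_zero.2 (Nat.mul_ne_zero (by omega) (by omega)), ?_⟩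
    simp only [wordMap, abs_mul, hB', hb', Nat.cast_mul]
    ring

open Classical in
theorem mapProb_le (hp : ∀ i, 0 < p i) (hr : ∀ i, ∃ b : ℕ, 2 ≤ b ∧ |r i| = 1 / (b : ℝ))
    (h : ResidueInvariant r t p) (n : ℕ) (w0 : Fin n → ι) :
    mapProb r t p n (wordMap r t n w0)
      ≤ |(wordMap r t n w0).1| * ∑ w : Fin n → ι, ∏ k, p (w k) := by
  obtain ⟨R, T, hRT⟩ : ∃ R T, wordMap r t n w0 = (R, T) := ⟨_, _, rfl⟩
  obtain ⟨B, hB, hB'⟩ := slope_eq (t := t) hr n w0
  rw [hRT] at hB' ⊢
  dsimp only at hB' ⊢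
  let P : (Fin n → ι) → ℝ := fun w => ∏ k, p (w k)
  have hP : ∀ w, 0 ≤ P w := fun w => prod_nonneg fun k _ => (hp _).le
  let f : ℕ → ℝ → ℝ := fun k x => if ∃ m : ℤ, x - (T - k * R) = m then 1 else 0
  have hf : ∀ k, Periodic (f k) 1 := by
    intro k x
    have : (∃ m : ℤ, x + 1 - (T - k * R) = m) ↔ ∃ m : ℤ, x - (T - k * R) = m :=
      ⟨fun ⟨m, hm⟩ => ⟨m - 1, by push_cast; linarith⟩,
        fun ⟨m, hm⟩ => ⟨m + 1, by push_cast; linarith⟩⟩
    simp only [f, this]
  let S : ℕ → ℝ := fun k =>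
    ∑ w, P w * (if (wordMap r t n w).1 = R then 1 else 0) * f k (wordMap r t n w).2
  have hS : ∀ k, S k = S 0 := by
    intro k
    induction k with
    | zero => rfl
    | succ k ih =>
      have := word_invariant h n (fun x => if x = R then 1 else 0) (f k) (hf k)
      simp only [mul_sub, sum_sub_distrib, sub_eq_zero] at this
      rw [← ih]
      refine Eq.trans (sum_congr rfl fun w _ => ?_) this
      by_cases hw : (wordMap r t n w).1 = R
      · simp only [f, hw, Nat.cast_succ, P]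
        congr 2
        simp only [eq_iff_iff]
        constructor <;> rintro ⟨m, hm⟩ <;> exact ⟨m, by linarith⟩
      · simp [hw]
  have hlow : mapProb r t p n (R, T) ≤ S 0 := by
    unfold mapProb
    rw [sum_filter]
    refine sum_le_sum fun w _ => ?_
    have h1 : 0 ≤ (if (wordMap r t n w).1 = R then (1 : ℝ) else 0) := by split_ifs <;> norm_num
    have h2 : 0 ≤ f 0 (wordMap r t n w).2 := by simp only [f]; split_ifs <;> norm_num
    by_cases hw : wordMap r t n w = (R, T)
    · rw [if_pos hw, hw]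
      have h3 : f 0 T = 1 := if_pos ⟨0, by simp⟩
      simp [h3, P]
    · rw [if_neg hw]
      exact mul_nonneg (mul_nonneg (hP w) h1) h2
  have hdisj : ∀ x, ∑ k ∈ Finset.range B, f k x ≤ 1 := by
    intro x
    simp only [f]
    rw [sum_boole]
    norm_cast
    refine card_le_one.2 fun k hk k' hk' => ?_
    obtain ⟨hkB, m, hm⟩ := mem_filter.1 hk
    obtain ⟨hkB', m', hm'⟩ := mem_filter.1 hk'
    have hkB := Finset.mem_range.1 hkB
    have hkB' := Finset.mem_range.1 hkB'
    by_contra hne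
    have hB0 : (0 : ℝ) < B := by exact_mod_cast hB
    have h1 : |((k : ℝ) - k') * R| < 1 := by
      rw [abs_mul, hB', ← mul_div_assoc, mul_one, div_lt_one hB0, abs_lt]
      have : (k : ℝ) < B := by exact_mod_cast hkB
      have : (k' : ℝ) < B := by exact_mod_cast hkB'
      constructor <;> linarith [(Nat.cast_nonneg k : (0 : ℝ) ≤ k),
        (Nat.cast_nonneg k' : (0 : ℝ) ≤ k')]
    have h2 : ((k : ℝ) - k') * R = ((m - m' : ℤ) : ℝ) := by push_cast; linarith
    rw [h2, ← Int.cast_abs] at h1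
    have h3 : m - m' = 0 := Int.abs_lt_one_iff.1 (by exact_mod_cast h1)
    rw [h3, Int.cast_zero, mul_eq_zero, sub_eq_zero] at h2
    rcases h2 with h2 | h2
    · exact hne (by exact_mod_cast h2)
    · rw [h2, abs_zero] at hB'
      have : (0 : ℝ) < 1 / (B : ℝ) := by positivity
      linarith
  have hup : (B : ℝ) * S 0 ≤ ∑ w, P w := by
    calc (B : ℝ) * S 0 = ∑ k ∈ Finset.range B, S k := by simp [hS]
      _ = ∑ w, P w * (if (wordMap r t n w).1 = R then 1 else 0) *
            ∑ k ∈ Finset.range B, f k (wordMap r t n w).2 := by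
          simp only [S]; rw [sum_comm]; simp only [mul_sum]
      _ ≤ ∑ w, P w := sum_le_sum fun w _ => by
          have h0 : 0 ≤ P w * (if (wordMap r t n w).1 = R then (1 : ℝ) else 0) :=
            mul_nonneg (hP w) (by split_ifs <;> norm_num)
          refine (mul_le_of_le_one_right h0 (hdisj _)).trans ?_
          split_ifs <;> simp [hP w]
  rw [hB', ← mul_div_right_comm, one_mul, le_div_iff₀ (by exact_mod_cast hB), mul_comm]
  exact (mul_le_mul_of_nonneg_left hlow (by positivity)).trans hup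

theorem sum_prod_eq_one (hsum : ∑ i, p i = 1) (n : ℕ) :
    ∑ w : Fin n → ι, ∏ k, p (w k) = 1 := by
  induction n with
  | zero => simp
  | succ n ih =>
    simp only [sum_cons, prod_cons_eq, ← mul_sum, ih, mul_one, hsum]

theorem lyapunov_words (hsum : ∑ i, p i = 1)
    (hr : ∀ i, ∃ b : ℕ, 2 ≤ b ∧ |r i| = 1 / (b : ℝ)) (n : ℕ) :
    ∑ w : Fin n → ι, (∏ k, p (w k)) * -Real.logb 2 |(wordMap r t n w).1|
      = n * -∑ i, p i * Real.logb 2 |r i| := by
  induction n with
  | zero => simp [wordMap]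
  | succ n ih =>
    have hne : ∀ i, |r i| ≠ 0 := fun i => by
      obtain ⟨b, hb, hb'⟩ := hr i
      rw [hb']; positivity
    have hne' : ∀ v : Fin n → ι, |(wordMap r t n v).1| ≠ 0 := fun v => by
      obtain ⟨B, hB, hB'⟩ := slope_eq (t := t) hr n v
      rw [hB']; positivity
    simp only [sum_cons, prod_cons_eq, wordMap_cons, abs_mul, Real.logb_mul (hne _) (hne' _)]
    calc ∑ i, ∑ v : Fin n → ι,
          p i * (∏ k, p (v k)) * -(Real.logb 2 |r i| + Real.logb 2 |(wordMap r t n v).1|)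
        = ∑ i, (-(p i * Real.logb 2 |r i|) * ∑ v : Fin n → ι, ∏ k, p (v k)) +
            (∑ i, p i) * ∑ v : Fin n → ι, (∏ k, p (v k)) * -Real.logb 2 |(wordMap r t n v).1| := by
          rw [sum_mul, ← sum_add_distrib]
          refine sum_congr rfl fun i _ => ?_
          simp only [mul_sum, ← sum_add_distrib]
          exact sum_congr rfl fun v _ => by ring
      _ = _ := by
          rw [sum_prod_eq_one hsum, hsum, ih, one_mul]
          simp only [mul_one, sum_neg_distrib, Nat.cast_succ]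
          ring

open Classical in
theorem le_mapEntropy (hp : ∀ i, 0 < p i) (hsum : ∑ i, p i = 1)
    (hr : ∀ i, ∃ b : ℕ, 2 ≤ b ∧ |r i| = 1 / (b : ℝ))
    (h : ResidueInvariant r t p) (n : ℕ) :
    n * -∑ i, p i * Real.logb 2 |r i| ≤ mapEntropy r t p n := by
  rw [← lyapunov_words (t := t) hsum hr n]
  unfold mapEntropy
  rw [← sum_fiberwise_of_maps_to (g := wordMap r t n)
    (fun w _ => mem_image_of_mem _ (mem_univ w))]
  refine sum_le_sum fun g hg => ?_
  obtain ⟨w0, -, rfl⟩ := mem_image.1 hg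
  have hle := mapProb_le hp hr h n w0
  rw [sum_prod_eq_one hsum, mul_one] at hle
  have hpos : 0 < mapProb r t p n (wordMap r t n w0) :=
    sum_pos (fun w _ => prod_pos fun k _ => hp _) ⟨w0, by simp⟩
  calc ∑ w ∈ univ.filter (fun w => wordMap r t n w = wordMap r t n w0),
        (∏ k, p (w k)) * -Real.logb 2 |(wordMap r t n w).1|
      = mapProb r t p n (wordMap r t n w0) * -Real.logb 2 |(wordMap r t n w0).1| := by
        unfold mapProb
        rw [sum_mul]
        exact sum_congr rfl fun w hw => by rw [(mem_filter.1 hw).2]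
    _ ≤ _ := by
        rw [mul_neg]
        exact neg_le_neg (mul_le_mul_of_nonneg_left
          (Real.logb_le_logb_of_le one_lt_two hpos hle) hpos.le)

theorem le_entropyRate (hp : ∀ i, 0 < p i) (hsum : ∑ i, p i = 1)
    (hr : ∀ i, ∃ b : ℕ, 2 ≤ b ∧ |r i| = 1 / (b : ℝ))
    (h : ResidueInvariant r t p) :
    -∑ i, p i * Real.logb 2 |r i| ≤ entropyRate r t p := by
  refine le_ciInf fun n => ?_
  rw [le_div_iff₀ (by positivity), mul_comm]
  exact_mod_cast le_mapEntropy hp hsum hr h (n + 1)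

theorem lyapunov_pos (hp : ∀ i, 0 < p i) (hsum : ∑ i, p i = 1)
    (hr : ∀ i, ∃ b : ℕ, 2 ≤ b ∧ |r i| = 1 / (b : ℝ)) :
    0 < -∑ i, p i * Real.logb 2 |r i| := by
  rw [← sum_neg_distrib]
  have hne : (univ : Finset ι).Nonempty := by
    by_contra h0
    rw [not_nonempty_iff_eq_empty.1 h0, sum_empty] at hsum
    exact zero_ne_one hsum
  refine sum_pos (fun i _ => ?_) hne
  obtain ⟨b, hb, hb'⟩ := hr i
  rw [← mul_neg]
  refine mul_pos (hp i) (neg_pos.2 (Real.logb_neg one_lt_two ?_ ?_))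
  · rw [hb']; positivity
  · rw [hb', div_lt_one (by positivity)]
    exact_mod_cast hb

end Vale.Agent.P114
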