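import Vale.Agent.P114.Defs

/-!
# P114: absolute continuity and full entropy under the residue invariance
-/

namespace Vale.Agent.P114

open Finset MeasureTheory Function

variable {ι : Type*} [Fintype ι]

open Classical in
/-- One step of the transfer operator restricted to the slope `s`. -/
noncomputable def stepOp (r t p : ι → ℝ) (s : ℝ) (f : ℝ → ℝ) (y : ℝ) : ℝ :=
  ∑ i ∈ univ.filter (fun i => r i = s), p i * f (t i + s * y)

open Classical in
/-- The invariance of the translation laws modulo one. -/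
def ResidueInvariant (r t p : ι → ℝ) : Prop :=
  ∀ (i : ι) (f : ℝ → ℝ), Periodic f 1 →
    ∑ j ∈ univ.filter (fun j => r j = r i), p j * f (t j + r i)
      = ∑ j ∈ univ.filter (fun j => r j = r i), p j * f (t j)

variable {r t p : ι → ℝ}

theorem periodic_stepOp (h : ResidueInvariant r t p) {f : ℝ → ℝ} (hf : Periodic f 1) (i : ι) :
    Periodic (stepOp r t p (r i) f) 1 := by
  intro y
  have hg : Periodic (fun x => f (x + r i * y)) 1 := by
    intro x
    change f (x + 1 + r i * y) = f (x + r i * y)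
    rw [add_right_comm]
    exact hf _
  have := h i _ hg
  simp only [stepOp]
  convert this using 2 with j hj
  ring_nf

theorem continuous_stepOp {f : ℝ → ℝ} (hf : Continuous f) (s : ℝ) :
    Continuous (stepOp r t p s f) := by
  unfold stepOp
  fun_prop

theorem integrable_of_periodic {f : ℝ → ℝ} (hc : Continuous f) (hper : Periodic f 1)
    (μ : Measure ℝ) [IsFiniteMeasure μ] : Integrable f μ := by
  obtain ⟨C, hC⟩ := hper.compact_of_continuous zero_ne_one.symm hc |>.isBounded.exists_norm_le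
  exact Integrable.of_bound hc.aestronglyMeasurable C
    (Filter.Eventually.of_forall fun x => hC _ ⟨x, rfl⟩)

theorem integrable_comp_periodic {f g : ℝ → ℝ} (hc : Continuous f) (hper : Periodic f 1)
    (hg : Continuous g) (μ : Measure ℝ) [IsFiniteMeasure μ] : Integrable (fun x => f (g x)) μ := by
  obtain ⟨C, hC⟩ := hper.compact_of_continuous zero_ne_one.symm hc |>.isBounded.exists_norm_le
  exact Integrable.of_bound (hc.comp hg).aestronglyMeasurable C
    (Filter.Eventually.of_forall fun x => hC _ ⟨g x, rfl⟩)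

variable (μ : Measure ℝ) [IsProbabilityMeasure μ]

theorem integral_stationary (hp : ∀ i, 0 ≤ p i)
    (hμ : μ = ∑ i, ENNReal.ofReal (p i) • μ.map (fun x => r i * x + t i))
    {f : ℝ → ℝ} (hc : Continuous f) (hper : Periodic f 1) :
    ∫ x, f x ∂μ = ∑ i, p i * ∫ x, f (r i * x + t i) ∂μ := by
  have hm : ∀ i, Measurable fun x => r i * x + t i := fun i => by fun_prop
  conv_lhs => rw [hμ]
  rw [integral_finsetSum_measure fun i _ =>
    (integrable_of_periodic hc hper _).smul_measure ENNReal.ofReal_ne_top]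
  refine sum_congr rfl fun i _ => ?_
  rw [integral_smul_measure, integral_map (hm i).aemeasurable hc.aestronglyMeasurable,
    ENNReal.toReal_ofReal (hp i), smul_eq_mul]

open Classical in
theorem translate_eq_aux (hp : ∀ i, 0 ≤ p i) (hsum : ∑ i, p i = 1)
    (hr : ∀ i, ∃ b : ℕ, 2 ≤ b ∧ |r i| = 1 / (b : ℝ))
    (h : ResidueInvariant r t p)
    (hμ : μ = ∑ i, ENNReal.ofReal (p i) • μ.map (fun x => r i * x + t i)) (n : ℕ) :
    ∀ (f : ℝ → ℝ) (ε : ℝ), Continuous f → Periodic f 1 →
      (∀ x y, |x - y| ≤ (1 / 2) ^ n → |f x - f y| ≤ ε) →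
      ∀ s s', |(∫ x, f (x + s) ∂μ) - ∫ x, f (x + s') ∂μ| ≤ ε := by
  induction n with
  | zero =>
    intro f ε hc hper hmod s s'
    have hall : ∀ x y, |f x - f y| ≤ ε := by
      intro x y
      have hfr : ∀ z, f z = f (Int.fract z) := fun z => by
        rw [Int.fract, ← mul_one (⌊z⌋ : ℝ)]; exact (hper.sub_int_mul_eq ⌊z⌋).symm
      rw [hfr x, hfr y]
      refine hmod _ _ ?_
      rw [pow_zero, abs_le]
      constructor <;> linarith [Int.fract_nonneg x, Int.fract_lt_one x, Int.fract_nonneg y,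
        Int.fract_lt_one y]
    have hs : ∀ u, Periodic (fun x => f (x + u)) 1 := fun u x => by
      simp only [add_right_comm x 1 u]; exact hper _
    rw [← integral_sub (integrable_of_periodic (f := fun x => f (x + s)) (by fun_prop) (hs s) μ)
      (integrable_of_periodic (f := fun x => f (x + s')) (by fun_prop) (hs s') μ)]
    calc |∫ x, f (x + s) - f (x + s') ∂μ| ≤ ε * μ.real Set.univ := by
          rw [← Real.norm_eq_abs]
          exact norm_integral_le_of_norm_le_const
            (Filter.Eventually.of_forall fun x => by rw [Real.norm_eq_abs]; exact hall _ _)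
      _ = ε := by simp
  | succ n ih =>
    intro f ε hc hper hmod s s'
    have hs : ∀ u, Periodic (fun x => f (x + u)) 1 := fun u x => by
      simp only [add_right_comm x 1 u]; exact hper _
    have key : ∀ u, (∫ x, f (x + u) ∂μ)
        = ∑ a ∈ univ.image r, ∫ y, stepOp r t p a f (y + u / a) ∂μ := by
      intro u
      rw [integral_stationary μ hp hμ (f := fun x => f (x + u)) (by fun_prop) (hs u),
        ← sum_fiberwise_of_maps_to (g := r) (fun i _ => mem_image_of_mem r (mem_univ i))]
      refine sum_congr rfl fun a ha => ?_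
      obtain ⟨i0, -, rfl⟩ := mem_image.1 ha
      have hne : r i0 ≠ 0 := by
        intro h0
        obtain ⟨b, hb, hb'⟩ := hr i0
        rw [h0, abs_zero] at hb'
        have : (0 : ℝ) < 1 / (b : ℝ) := by positivity
        linarith
      simp only [stepOp]
      rw [integral_finsetSum]
      · refine sum_congr rfl fun i hi => ?_
        rw [(mem_filter.1 hi).2, ← integral_const_mul]
        congr 1
        funext y
        congr 2
        field_simp
        ring
      · intro i _
        exact (integrable_comp_periodic hc hper (by fun_prop) μ).const_mul _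
    rw [key, key, ← sum_sub_distrib]
    refine (abs_sum_le_sum_abs _ _).trans ?_
    calc ∑ a ∈ univ.image r, |(∫ y, stepOp r t p a f (y + s / a) ∂μ)
            - ∫ y, stepOp r t p a f (y + s' / a) ∂μ|
        ≤ ∑ a ∈ univ.image r, (∑ i ∈ univ.filter (fun i => r i = a), p i) * ε := by
          refine sum_le_sum fun a ha => ?_
          obtain ⟨i0, -, rfl⟩ := mem_image.1 ha
          refine ih _ _ (continuous_stepOp hc _) (periodic_stepOp h hper i0) ?_ _ _
          intro x y hxy
          simp only [stepOp]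
          rw [← sum_sub_distrib, sum_mul]
          refine (abs_sum_le_sum_abs _ _).trans (sum_le_sum fun j _ => ?_)
          rw [← mul_sub, abs_mul, abs_of_nonneg (hp j)]
          refine mul_le_mul_of_nonneg_left (hmod _ _ ?_) (hp j)
          obtain ⟨b, hb, hb'⟩ := hr i0
          have h2 : |r i0| ≤ 1 / 2 := by
            rw [hb']
            exact one_div_le_one_div_of_le two_pos (by exact_mod_cast hb)
          rw [add_sub_add_left_eq_sub, ← mul_sub, abs_mul, pow_succ, mul_comm ((1 / 2 : ℝ) ^ n)]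
          exact mul_le_mul h2 hxy (abs_nonneg _) (by norm_num)
      _ = ε := by
          rw [← sum_mul, sum_fiberwise_of_maps_to (fun i _ => mem_image_of_mem r (mem_univ i)),
            hsum, one_mul]

theorem translate_eq (hp : ∀ i, 0 ≤ p i) (hsum : ∑ i, p i = 1)
    (hr : ∀ i, ∃ b : ℕ, 2 ≤ b ∧ |r i| = 1 / (b : ℝ))
    (h : ResidueInvariant r t p)
    (hμ : μ = ∑ i, ENNReal.ofReal (p i) • μ.map (fun x => r i * x + t i))
    {f : ℝ → ℝ} (hc : Continuous f) (hper : Periodic f 1) (s s' : ℝ) :
    ∫ x, f (x + s) ∂μ = ∫ x, f (x + s') ∂μ := by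
  refine eq_of_forall_dist_le fun ε hε => ?_
  obtain ⟨δ, hδ, hu⟩ := Metric.uniformContinuousOn_iff.1
    ((isCompact_Icc (a := (-1 : ℝ)) (b := 2)).uniformContinuousOn_of_continuous hc.continuousOn)
    ε hε
  obtain ⟨n, hn⟩ := exists_pow_lt_of_lt_one hδ (by norm_num : (1 / 2 : ℝ) < 1)
  rw [Real.dist_eq]
  refine translate_eq_aux μ hp hsum hr h hμ n f ε hc hper (fun x y hxy => ?_) s s'
  have h1 : (1 / 2 : ℝ) ^ n ≤ 1 := pow_le_one₀ (by norm_num) (by norm_num)
  have hsh : ∀ z, f z = f (z - ⌊x⌋) := fun z => by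
    rw [← mul_one (⌊x⌋ : ℝ)]; exact (hper.sub_int_mul_eq ⌊x⌋).symm
  rw [hsh x, hsh y]
  have := hu (x - ⌊x⌋) ⟨by linarith [Int.floor_le x], by linarith [Int.lt_floor_add_one x]⟩
    (y - ⌊x⌋) ⟨by linarith [Int.floor_le x, (abs_le.1 hxy).2],
      by linarith [Int.lt_floor_add_one x, (abs_le.1 hxy).1]⟩
    (by rw [Real.dist_eq, sub_sub_sub_cancel_right]; exact hxy.trans_lt hn)
  rw [Real.dist_eq] at this
  exact this.le

theorem integral_eq_lebesgue (hp : ∀ i, 0 ≤ p i) (hsum : ∑ i, p i = 1)
    (hr : ∀ i, ∃ b : ℕ, 2 ≤ b ∧ |r i| = 1 / (b : ℝ))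
    (h : ResidueInvariant r t p)
    (hμ : μ = ∑ i, ENNReal.ofReal (p i) • μ.map (fun x => r i * x + t i))
    {f : ℝ → ℝ} (hc : Continuous f) (hper : Periodic f 1) :
    ∫ x, f x ∂μ = ∫ x in Set.Ioc (0 : ℝ) 1, f x := by
  have : IsFiniteMeasure ((volume : Measure ℝ).restrict (Set.Ioc (0 : ℝ) 1)) :=
    isFiniteMeasure_restrict.2 (by simp)
  obtain ⟨C, hC⟩ := hper.compact_of_continuous zero_ne_one.symm hc |>.isBounded.exists_norm_le
  have h1 : ∀ s, ∫ x, f (x + s) ∂μ = ∫ x, f x ∂μ := fun s => by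
    simpa using translate_eq μ hp hsum hr h hμ hc hper s 0
  have h2 : ∀ x, (∫ s in Set.Ioc (0 : ℝ) 1, f (x + s)) = ∫ s in Set.Ioc (0 : ℝ) 1, f s := by
    intro x
    rw [← intervalIntegral.integral_of_le zero_le_one, ← intervalIntegral.integral_of_le zero_le_one,
      intervalIntegral.integral_comp_add_left, add_zero]
    simpa using hper.intervalIntegral_add_eq x 0
  have hsw := integral_integral_swap (μ := μ) (ν := volume.restrict (Set.Ioc (0 : ℝ) 1))
    (f := fun x s => f (x + s))
    (Integrable.of_bound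
      ((hc.comp (continuous_fst.add continuous_snd)).aestronglyMeasurable) C
      (Filter.Eventually.of_forall fun z => hC _ ⟨z.1 + z.2, rfl⟩))
  simp only [h1, h2, integral_const, smul_eq_mul] at hsw
  simpa using hsw.symm

theorem absolutelyContinuous (hp : ∀ i, 0 ≤ p i) (hsum : ∑ i, p i = 1)
    (hr : ∀ i, ∃ b : ℕ, 2 ≤ b ∧ |r i| = 1 / (b : ℝ))
    (h : ResidueInvariant r t p)
    (hμ : μ = ∑ i, ENNReal.ofReal (p i) • μ.map (fun x => r i * x + t i)) :
    μ ≪ volume := by
  have hmk : Measurable (fun x : ℝ => (x : AddCircle (1 : ℝ))) :=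
    (AddCircle.continuous_mk' 1).measurable
  have hmap : μ.map (fun x : ℝ => (x : AddCircle (1 : ℝ))) = volume := by
    have : IsFiniteMeasure (μ.map (fun x : ℝ => (x : AddCircle (1 : ℝ)))) :=
      Measure.isFiniteMeasure_map _ _
    refine ext_of_forall_integral_eq_of_IsFiniteMeasure fun g => ?_
    rw [integral_map hmk.aemeasurable g.continuous.aestronglyMeasurable,
      integral_eq_lebesgue μ hp hsum hr h hμ (f := fun x : ℝ => g (x : AddCircle (1 : ℝ)))
        (g.continuous.comp (AddCircle.continuous_mk' 1))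
        (fun x => congrArg g (AddCircle.coe_add_period 1 x)),
      ← AddCircle.integral_preimage 1 0]
    simp
  refine Measure.AbsolutelyContinuous.mk fun E hE hE0 => ?_
  set E' := ⋃ n : ℤ, (fun x : ℝ => x + n) ⁻¹' E with hE'
  have hE'm : MeasurableSet E' := MeasurableSet.iUnion fun n => hE.preimage (by fun_prop)
  have hE'0 : volume E' = 0 := by
    refine measure_iUnion_null fun n => ?_
    rw [measure_preimage_add_right, hE0]
  set S : Set (AddCircle (1 : ℝ)) :=
    (fun z => ((AddCircle.equivIoc 1 0 z : Set.Ioc (0 : ℝ) (0 + 1)) : ℝ)) ⁻¹' E' with hS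
  have hSm : MeasurableSet S :=
    hE'm.preimage (measurable_subtype_coe.comp (AddCircle.measurableEquivIoc 1 0).measurable)
  have hrep : ∀ x : ℝ, ∃ n : ℤ,
      ((AddCircle.equivIoc 1 0 (x : AddCircle (1 : ℝ)) : Set.Ioc (0 : ℝ) (0 + 1)) : ℝ) = x + n := by
    intro x
    obtain ⟨n, hn⟩ := AddSubgroup.mem_zmultiples_iff.1
      (QuotientAddGroup.eq_iff_sub_mem.1 (AddCircle.coe_equivIoc (p := (1 : ℝ)) (a := 0)
        (y := (x : AddCircle (1 : ℝ)))))
    refine ⟨n, ?_⟩
    rw [zsmul_one] at hn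
    linarith
  have hsub : E ⊆ (fun x : ℝ => (x : AddCircle (1 : ℝ))) ⁻¹' S := by
    intro x hx
    obtain ⟨n, hn⟩ := hrep x
    refine Set.mem_iUnion.2 ⟨-n, ?_⟩
    simpa [hn] using hx
  have hS0 : volume S = 0 := by
    rw [AddCircle.add_projection_respects_measure 1 0 hSm]
    refine measure_mono_null (fun x hx => ?_) hE'0
    obtain ⟨n, hn⟩ := hrep x
    obtain ⟨m, hm⟩ := Set.mem_iUnion.1 (show _ ∈ E' from hx.1)
    refine Set.mem_iUnion.2 ⟨n + m, ?_⟩
    simpa [hn, add_assoc] using hm
  refine measure_mono_null hsub ?_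
  rw [← Measure.map_apply hmk hSm, hmap, hS0]

theorem dimH_eq_one (hp : ∀ i, 0 ≤ p i) (hsum : ∑ i, p i = 1)
    (hr : ∀ i, ∃ b : ℕ, 2 ≤ b ∧ |r i| = 1 / (b : ℝ))
    (h : ResidueInvariant r t p)
    (hμ : μ = ∑ i, ENNReal.ofReal (p i) • μ.map (fun x => r i * x + t i))
    {E : Set ℝ} (hE : 0 < μ E) : dimH E = 1 := by
  refine le_antisymm ((dimH_mono (Set.subset_univ E)).trans_eq Real.dimH_univ) ?_
  have hv : (μH[1] : Measure ℝ) E ≠ 0 := by
    rw [hausdorffMeasure_real]
    exact fun h0 => hE.ne' (absolutelyContinuous μ hp hsum hr h hμ h0)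
  exact_mod_cast le_dimH_of_hausdorffMeasure_ne_zero (d := 1) (by exact_mod_cast hv)

end Vale.Agent.P114
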